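import Vale.Agent.P352X.R.POLY.Spec
import Vale.Agent.P352X.R.GFF

/-!
# P352X, row POLY: the algebraic half
-/

set_option linter.all false

namespace Vale.Agent.P352X.Poly

open Vale.Agent.P352 Vale.Agent.P352.GF Vale.Agent.P352.BW MvPolynomial

noncomputable section

namespace AlgP

abbrev Q4 := MvPolynomial Ix ℂ

theorem ext_Fc {q q' : Q4} (h : ∀ p ∈ Fc, evp q p = evp q' p) : q = q' := by
  have h0 : pt 1 1 0 ∈ Fc := by simp [mem_Fc, mu_eq]
  refine sub_eq_zero.1 (Gf.evp_zero isOpen_Fc h0 fun p hp => ?_)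
  rw [evp, map_sub]
  exact sub_eq_zero.2 (h p hp)

/-- linear substitutions -/
def sub (L : Ix → V) : Q4 →ₐ[ℂ] Q4 := aeval fun n => ∑ m, X m * C (L m n : ℂ)

theorem evp_sub (L : Ix → V) (q : Q4) (p : V) : evp (sub L q) p = evp q (sim 1 L 0 p) := by
  induction q using MvPolynomial.induction_on with
  | C a => simp [evp, sub]
  | add p q hp hq => simpa [evp] using congrArg₂ (· + ·) hp hq
  | mul_X q n hq =>
    simp only [evp, map_mul] at hq ⊢
    rw [hq]
    simp [sub, sim]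

def bp : Q4 := X 0 - X 1
def ap : Q4 := X 0 + X 1

theorem evp_bp (p : V) : evp bp p = be p := by simp [evp, bp, be_eq]

theorem evp_mup (p : V) : evp mup p = mu p := by simp [evp, mup, mu, GF.mdot, sq, mul_assoc]

def shift (a : ℂ) : Q4 →ₐ[ℂ] Q4 := aeval fun n => if n = 0 then X 0 + C a * X 1 else X n

theorem shift_shift {a b : ℂ} (h : a + b = 0) : (shift a).comp (shift b) = AlgHom.id ℂ Q4 := by
  ext1 n
  by_cases h0 : n = 0
  · have e : (C a : Q4) + C b = 0 := by rw [← map_add, h, map_zero]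
    simp [shift, h0]
    linear_combination e * X 1
  · simp [shift, h0]

theorem prime_bp : Prime bp := by
  have := (MulEquiv.prime_iff (AlgEquiv.ofAlgHom (shift (-1)) (shift 1)
    (shift_shift (by simp)) (shift_shift (by simp))) (p := X 0)).2 X_prime
  simpa [shift, ← sub_eq_add_neg, bp] using this

theorem not_dvd {q : Q4} (p : V) (h : be p = 0) (h' : evp q p ≠ 0) : ¬bp ∣ q := by
  rintro ⟨w, rfl⟩
  refine h' ?_
  rw [evp, map_mul, ← evp, evp_bp, h, Complex.ofReal_zero, zero_mul]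

theorem bp_ap (M : ℕ) : ¬bp ∣ ap ^ M := fun h =>
  not_dvd va be_va (by norm_num [evp, ap, va]) (prime_bp.dvd_of_dvd_pow h)

theorem bp_mup : ¬bp ∣ mup :=
  not_dvd (ex 0) (be_ex 0) (by rw [evp_mup, mu_eq, tx_ex]; simp [d2, e2])

/-- the rotation that exchanges the two null directions -/
def rot : Ix → V := ![![1, 0, 0, 0], ![0, -1, 0, 0], ![0, 0, -1, 0], ![0, 0, 0, 1]]

theorem rot_lor : IsLor rot := by
  refine ⟨fun m n => ?_, by simp [rot, o], ?_⟩
  · fin_cases m <;> fin_cases n <;> simp [mdot_eq, rot, bas, eta, o]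
  · have e : Matrix.of rot = Matrix.diagonal ![1, -1, -1, 1] := by
      ext m n
      fin_cases m <;> fin_cases n <;> simp [rot]
    change (Matrix.of rot).det = 1
    simp [e, Fin.prod_univ_four]

theorem rot_rot (p : V) : sim 1 rot 0 (sim 1 rot 0 p) = p := by
  funext n
  fin_cases n <;> simp [sim, rot, Fin.sum_univ_four]

theorem be_rot (p : V) : (be (sim 1 rot 0 p) : ℂ) = evp ap p := by
  simp [sim, rot, Fin.sum_univ_four, be_eq, evp, ap]

theorem sum_one {N : ℕ} (G : Ix → Ix → (Fin N → Ix) → ℂ) (r s : Ix) (μ : Fin N → Ix) :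
    ∑ k, ∑ l, ∑ ν : Fin N → Ix, ((GF.one k r * GF.one l s * ∏ i, GF.one (ν i) (μ i) : ℝ) : ℂ) *
      G k l ν = G r s μ := by
  have e : ∀ ν : Fin N → Ix, ∏ i, GF.one (ν i) (μ i) = if μ = ν then 1 else 0 := fun ν => by
    simp only [GF.one, bas, Finset.prod_ite_zero, Finset.mem_univ, forall_const, ← funext_iff,
      Finset.prod_const_one]
  simp only [e]
  simp [GF.one, bas, apply_ite Complex.ofReal]

theorem hom_of {q : Q4} {d : ℤ}
    (h : ∀ p ∈ Fc, evp q ((2 : ℝ) • p) = (((2 : ℝ) ^ d : ℝ) : ℂ) * evp q p) :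
    q.IsHomogeneous d.toNat ∧ (d < 0 → q = 0) := by
  have e : ∑ m ∈ q.support, monomial m ((2 : ℂ) ^ m.degree * coeff m q) =
      C (((2 : ℝ) ^ d : ℝ) : ℂ) * q := ext_Fc fun p hp => by
    have := h p hp
    simp only [evp] at this ⊢
    rw [map_mul, eval_C, ← this, map_sum, eval_eq]
    refine Finset.sum_congr rfl fun m _ => ?_
    simp [eval_monomial, mul_pow, Finset.prod_mul_distrib, Finset.prod_pow_eq_pow_sum,
      Finsupp.degree_apply, Finsupp.prod]
    ring
  have k : ∀ m, coeff m q ≠ 0 → (m.degree : ℤ) = d := fun m hm => by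
    have := congrArg (coeff m) e
    rw [coeff_C_mul, coeff_sum] at this
    simp only [coeff_monomial, Finset.sum_ite_eq', mem_support_iff, ne_eq, hm, not_false_eq_true,
      if_true, mul_left_inj' hm] at this
    refine zpow_right_injective₀ (a := (2 : ℝ)) two_pos (by norm_num) ?_
    simp only [zpow_natCast]
    exact Complex.ofReal_injective (by simpa using this)
  refine ⟨fun m hm => ?_, fun hd => MvPolynomial.ext _ _ fun m => by_contra fun hm => ?_⟩
  · rw [← k m hm, Int.toNat_natCast, Finsupp.degree_eq_weight_one]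
    rfl
  · have := k m hm
    omega

end AlgP

open AlgP

/-- **row POLY.alg** -/
theorem alg : ALG := by
  intro N d F ⟨cov, sym, con, M, A, Q, pol⟩
  set P : Ix → Ix → (Fin N → Ix) → Q4 := fun r s μ => X r * A s μ + mup * Q r s μ with hP
  have h1 : ∀ r s μ, ∀ p ∈ Fc, evp (P r s μ) p = (be p : ℂ) ^ M * F r s μ p := fun r s μ p hp => by
    rw [pol r s μ p hp, ← evp_mup]
    simp [hP, evp]
  have h2 : ∀ r s μ, bp ^ M ∣ P r s μ := fun r s μ => by
    refine prime_bp.pow_dvd_of_dvd_mul_left M (bp_ap M) ⟨∑ k, ∑ l, ∑ ν : Fin N → Ix,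
      C ((rot k r * rot l s * ∏ i, rot (ν i) (μ i) : ℝ) : ℂ) * sub rot (P k l ν),
      ext_Fc fun p hp => ?_⟩
    have a := cov r s μ 1 rot _ one_pos rot_lor (Fc_lor rot_lor hp)
    rw [rot_rot, one_zpow, Complex.ofReal_one, one_mul] at a
    simp only [evp, map_mul, map_pow, map_sum, eval_C]
    simp only [← evp.eq_1, evp_sub, h1 _ _ _ _ hp, h1 _ _ _ _ (Fc_lor rot_lor hp), be_rot, evp_bp, a,
      Finset.mul_sum]
    refine Finset.sum_congr rfl fun k _ => Finset.sum_congr rfl fun l _ =>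
      Finset.sum_congr rfl fun ν _ => by ring
  choose π hπ using h2
  have h3 : ∀ r s μ, ∀ p ∈ Fc, evp (π r s μ) p = F r s μ p := fun r s μ p hp => by
    have := h1 r s μ p hp
    rw [hπ, evp, map_mul, map_pow, ← evp, evp_bp] at this
    exact mul_left_cancel₀ (pow_ne_zero M (Complex.ofReal_ne_zero.2 ((mem_Fc p).1 hp).1.ne')) this
  refine ⟨π, h3, fun r s μ => hom_of fun p hp => ?_, fun r s μ => ext_Fc fun p hp => ?_,
    fun s μ => ext_Fc fun p hp => ?_, fun r s k μ => ?_, fun r s μ L p hL => ?_⟩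
  · have a := cov r s μ 2 GF.one p two_pos H496.isLor_one hp
    have b : sim 2 GF.one 0 p = (2 : ℝ) • p := by
      funext n
      simp [sim, GF.one, bas]
    rw [sum_one (fun k l ν => F k l ν p), b] at a
    rw [h3 _ _ _ _ ((Fc_smul two_pos).2 hp), h3 _ _ _ _ hp, a]
  · rw [h3 _ _ _ _ hp, h3 _ _ _ _ hp, sym _ _ _ _ hp]
  · rw [evp, evp, map_zero, ← con s μ p hp, map_sum]
    refine Finset.sum_congr rfl fun r _ => ?_
    rw [← h3 _ _ _ _ hp]
    simp [evp]
  · have e : mup * (Q r s μ * X k - Q k s μ * X r) = bp ^ M * (π r s μ * X k - π k s μ * X r) := by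
      rw [mul_sub (bp ^ M), ← mul_assoc, ← mul_assoc, ← hπ, ← hπ]
      simp only [hP]
      ring
    obtain ⟨w, hw⟩ := prime_bp.pow_dvd_of_dvd_mul_left M bp_mup ⟨_, e⟩
    rw [hw, mul_left_comm] at e
    exact ⟨w, (mul_left_cancel₀ (pow_ne_zero M prime_bp.ne_zero) e).symm⟩
  · have e : sub L (π r s μ) = ∑ k, ∑ l, ∑ ν : Fin N → Ix,
        C ((L k r * L l s * ∏ i, L (ν i) (μ i) : ℝ) : ℂ) * π k l ν := ext_Fc fun p hp => by
      rw [evp_sub, h3 _ _ _ _ (Fc_lor hL hp), cov r s μ 1 L p one_pos hL hp, one_zpow,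
        Complex.ofReal_one, one_mul]
      simp only [evp, map_mul, map_sum, eval_C]
      simp only [← evp.eq_1, h3 _ _ _ _ hp]
    rw [← evp_sub, e]
    simp only [evp, map_mul, map_sum, eval_C]

end

end Vale.Agent.P352X.Poly
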