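import Vale.Agent.P352X.R.POLY.Defs

/-!
# P352X, row POLY: uniqueness, conservation and covariance of the densities (helper80)
-/

set_option linter.all false

open MeasureTheory Measure Set Filter Topology
open scoped SchwartzMap ComplexConjugate NNReal ENNReal

namespace Vale.Agent.P352X.Poly

open Vale.Agent.P352.GF Vale.Agent.P352.BW Vale.Agent.P352.H496 Vale.Agent.P352.H755
open UniformSpace (Completion)
open Two

noncomputable section

theorem cp_int {G H : V → ℂ} (hG : Cp Fc G) (hH : ContinuousOn H Fc) :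
    IntegrableOn (fun p => G p * H p) Fc := by
  obtain ⟨⟨hm, C, hC⟩, B, h1, h2, h3⟩ := hG
  refine IntegrableOn.of_forall_diff_eq_zero (s := B) ?_ meas_Fc fun p hp => by
    rw [h3 p hp.2, zero_mul]
  exact ((hH.mono h2).integrableOn_compact h1).bdd_mul hm.aestronglyMeasurable (.of_forall hC)

/-- continuous functions that are orthogonal to all `Cp` functions vanish -/
theorem van {H : V → ℂ} (hH : ContinuousOn H Fc) (h : ∀ G, Cp Fc G → ∫ p in Fc, G p * H p = 0) :
    ∀ p ∈ Fc, H p = 0 := by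
  have := isOpen_Fc.ae_eq_zero_of_integral_contDiff_smul_eq_zero (μ := volume)
    (hH.locallyIntegrableOn meas_Fc) fun g h1 h2 h3 => by
      obtain ⟨C, -, hC⟩ := Ap.cs_bd0 (Ap.dc_cx ⟨h1, h2⟩)
      have := h (fun p => g p) ⟨⟨(Complex.continuous_ofReal.comp h1.continuous).measurable, C, hC⟩,
        _, h2, h3, fun p hp => by simp [image_eq_zero_of_notMem_tsupport hp]⟩
      rwa [setIntegral_eq_integral_of_forall_compl_eq_zero fun p hp => by
        simp [image_eq_zero_of_notMem_tsupport fun k => hp (h3 k)]] at this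
  exact Measure.eqOn_open_of_ae_eq (μ := volume) ((ae_restrict_iff' meas_Fc).2 this) isOpen_Fc hH
    continuousOn_const

theorem cont_gg : Continuous fun p => conj (ft g0 p) * ft g0 p :=
  (Complex.continuous_conj.comp (cont_ft g0_in.1)).mul (cont_ft g0_in.1)

theorem gg_ne (p : V) : conj (ft g0 p) * ft g0 p ≠ 0 :=
  mul_ne_zero (by simpa using g0_ne p) (g0_ne p)

theorem cp_cj {G : V → ℂ} (h : Cp Fc G) : Cp Fc fun p => conj (G p) :=
  ⟨h.1.cj, h.2.imp fun _ h => ⟨h.1, h.2.1, fun p hp => by simp [h.2.2 p hp]⟩⟩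

variable {D : Type*} [NormedAddCommGroup D] [InnerProductSpace ℂ D] (c : Ctx D)

theorem uni : UNI c := fun v w F F' h h' a a' p hp => by
  have b : ContinuousOn (fun p => conj (ft g0 p) * ft g0 p * F p) Fc := cont_gg.continuousOn.mul a
  have b' : ContinuousOn (fun p => conj (ft g0 p) * ft g0 p * F' p) Fc :=
    cont_gg.continuousOn.mul a'
  have := van (H := fun p => conj (ft g0 p) * ft g0 p * F p - conj (ft g0 p) * ft g0 p * F' p)
    (b.sub b') (fun G hG => by
    simp only [mul_sub]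
    rw [integral_sub (cp_int hG b) (cp_int hG b'), ← h G hG, ← h' G hG, sub_self]) p hp
  exact mul_left_cancel₀ (gg_ne p) (sub_eq_zero.1 this)

theorem con : CON c := fun v w F h0 h a p hp => by
  have e : ∀ m, Continuous fun p : V => ((eta m * p m : ℝ) : ℂ) := fun m => by fun_prop
  have b : ∀ m, ContinuousOn (fun p => conj (ft g0 p) * ft g0 p * F m p) Fc :=
    fun m => cont_gg.continuousOn.mul (a m)
  have := van (H := fun p => ∑ m, ((eta m * p m : ℝ) : ℂ) * (conj (ft g0 p) * ft g0 p * F m p))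
    (continuousOn_finset_sum _ fun m _ => (e m).continuousOn.mul (b m))
    (fun G hG => by
      have k : ∀ m, Cp Fc fun p => G p * ((eta m * p m : ℝ) : ℂ) :=
        fun m => hG.mul (e m).measurable (e m).continuousOn
      simp only [Finset.mul_sum, fun p m x => (mul_assoc (G p) ((eta m * p m : ℝ) : ℂ) x).symm]
      rw [integral_finset_sum _ fun m _ => cp_int (k m) (b m)]
      simp only [← h _ _ (k _), c.bt.adj' (k _).1, map_mul, Complex.conj_ofReal, ← sum_inner,
        h0 _ (cp_cj hG), inner_zero_left]) p hp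
  refine mul_left_cancel₀ (gg_ne p) ?_
  rw [mul_zero, ← this, Finset.mul_sum]
  exact Finset.sum_congr rfl fun m _ => mul_left_comm _ _ _

theorem cov : COV c := fun k l d d' Λ Λ' F h h' hF hc J μ t L p ht hL hp => by
  have hs := inv_pos.2 ht
  have hk := Kin.du_meas t⁻¹ L
  have hA := Kin.du_pair t⁻¹ hL
  have h1 : ∀ p, Kin.du t⁻¹ L (sim t L 0 p) = p := fun p => by
    rw [Kin.du, sim_smul (s := t), (conf_lor (P352.H246.isLor_linv hL)).lin.map_smul, linv_sim _ hL,
      inv_smul_smul₀ ht.ne']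
  have h2 : ∀ p, sim t L 0 (Kin.du t⁻¹ L p) = p := fun p => by
    obtain ⟨q, rfl⟩ := (conf_sim ht hL).cle.surjective p
    rw [Conf.cle_apply, h1]
  have cs := (conf_sim ht hL).cont
  have ms : MapsTo (sim t L 0) Fc Fc := fun q hq => (Fc_sim ht hL q).2 hq
  have b := wt_g0.bd
  set a : (Fin k → Ix) → (Fin l → Ix) → ℂ := fun J' ν =>
    ((t⁻¹ ^ (-d) * ∏ i, L (J' i) (J i) : ℝ) : ℂ) * ((t⁻¹ ^ (-d') * ∏ i, L (ν i) (μ i) : ℝ) : ℂ)
  have g2 : Continuous fun p => conj (ft g0 (sim t L 0 p)) * ft g0 (sim t L 0 p) :=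
    cont_gg.comp cs
  have g1 := g2.continuousOn (s := Fc)
  have c1 : ContinuousOn (fun p => t ^ 4 • (conj (ft g0 p) * ft g0 p * (conj (ft g0 (sim t L 0 p)) *
      ft g0 (sim t L 0 p) * F J μ (sim t L 0 p)))) Fc :=
    (cont_gg.continuousOn.mul (g1.mul ((hc J μ).comp cs.continuousOn ms))).const_smul (t ^ 4)
  have c2 : ∀ J' ν, ContinuousOn (fun p => conj (ft g0 p) * ft g0 p * F J' ν p) Fc :=
    fun J' ν => cont_gg.continuousOn.mul (hc J' ν)
  have c3 : ContinuousOn (fun p => conj (ft g0 (sim t L 0 p)) * ft g0 (sim t L 0 p) *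
      ∑ J', ∑ ν, a J' ν * (conj (ft g0 p) * ft g0 p * F J' ν p)) Fc :=
    g1.mul (continuousOn_finset_sum Finset.univ fun J' _ =>
      continuousOn_finset_sum Finset.univ fun ν _ => (continuousOn_const (c := a J' ν)).mul
        (c2 J' ν))
  have := van (c1.fun_sub c3) (fun G hG => ?_) p hp
  · simp only [sub_eq_zero, Complex.real_smul] at this
    refine mul_left_cancel₀ (mul_ne_zero (Complex.ofReal_ne_zero.2 (pow_pos ht 4).ne')
      (mul_ne_zero (gg_ne p) (gg_ne (sim t L 0 p)))) ?_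
    rw [mul_assoc, mul_assoc _ _ (F _ _ _), this]
    simp only [Finset.mul_sum]
    refine Finset.sum_congr rfl fun J' _ => Finset.sum_congr rfl fun ν _ => ?_
    have e : t⁻¹ ^ (-d) * t⁻¹ ^ (-d') = t ^ 4 * t ^ (d + d' - 4) := by
      rw [Real.inv_rpow ht.le, Real.inv_rpow ht.le, Real.rpow_neg ht.le, Real.rpow_neg ht.le,
        inv_inv, inv_inv, ← Real.rpow_add ht, ← Real.rpow_natCast, ← Real.rpow_add ht]
      congr 1
      push_cast
      ring
    have e' := congrArg (fun x : ℝ => (x : ℂ)) e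
    simp only [a]
    push_cast at e' ⊢
    linear_combination (conj (ft g0 (sim t L 0 p)) * ft g0 (sim t L 0 p) *
      (conj (ft g0 p) * ft g0 p) * F J' ν p * (∏ i, (L (J' i) (J i) : ℂ)) *
        ∏ i, (L (ν i) (μ i) : ℂ)) * e'
  · have k1 : Cp Fc fun q => G (Kin.du t⁻¹ L q) := ⟨hG.1.comp hk, hG.2.elim fun B hB =>
      ⟨_, hB.1.image cs, image_subset_iff.2 fun q hq => ms (hB.2.1 hq), fun q hq =>
        hB.2.2 _ fun e => hq ⟨_, e, h2 q⟩⟩⟩
    have k2 : Cp Fc fun q => G (Kin.du t⁻¹ L q) *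
        (conj (ft g0 (Kin.du t⁻¹ L q)) * ft g0 (Kin.du t⁻¹ L q)) :=
      k1.mul (cont_gg.measurable.comp hk) (cont_gg.comp (Kin.du_cont _ _)).continuousOn
    have k3 : Cp Fc fun p => G p * (conj (ft g0 (sim t L 0 p)) * ft g0 (sim t L 0 p)) :=
      hG.mul g2.measurable g1
    have A1 := hF J μ _ k2
    have A2 : inner ℂ (Λ J gS) (c.bt.Phi (fun q => G (Kin.du t⁻¹ L q) *
        (conj (ft g0 (Kin.du t⁻¹ L q)) * ft g0 (Kin.du t⁻¹ L q))) (Λ' μ gS)) =
        ∑ J', ∑ ν, a J' ν * inner ℂ (Λ J' gS) (c.bt.Phi (fun p => G p *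
          (conj (ft g0 (sim t L 0 p)) * ft g0 (sim t L 0 p))) (Λ' ν gS)) := by
      simp only [mul_left_comm (G (Kin.du t⁻¹ L _))]
      rw [c.bt.mul_apply (b.comp hk).cj (k1.1.mul (b.comp hk)), ← c.bt.adj (b.comp hk),
        c.bt.mul_apply k1.1 (b.comp hk), h.key hs hL hk hA h1 h2, h'.key hs hL hk hA h1 h2]
      simp only [_root_.map_sum, map_smul, sum_inner, inner_sum, inner_smul_left, inner_smul_right,
        Complex.conj_ofReal, Finset.mul_sum]
      rw [Finset.sum_comm]
      refine Finset.sum_congr rfl fun J' _ => Finset.sum_congr rfl fun ν _ => ?_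
      rw [← inner_unitary ((grp_row c).uni t⁻¹ L 0) (Λ J' gS), Phi_W hk (ug_ut hs hL) hA k3.1,
        c.bt.adj b, ← c.bt.mul_apply k1.1 b, ← c.bt.mul_apply b.cj (k1.1.mul b)]
      simp only [h2, a, mul_left_comm (G (Kin.du t⁻¹ L _))]
      ring
    rw [A2, (scF_sim ht hL).integral', inv_inv] at A1
    simp only [h1, hF _ _ _ k3] at A1
    simp only [mul_sub]
    have i2 : ∀ J' ν, IntegrableOn (fun p => a J' ν * (G p * (conj (ft g0 (sim t L 0 p)) *
        ft g0 (sim t L 0 p)) * (conj (ft g0 p) * ft g0 p * F J' ν p))) Fc :=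
      fun J' ν => (cp_int k3 (c2 J' ν)).const_mul _
    rw [integral_sub (cp_int hG c1) (cp_int hG c3), sub_eq_zero]
    simp only [← integral_const_mul, ← integral_smul] at A1
    simp only [← integral_finset_sum _ fun ν _ => i2 _ ν] at A1
    rw [← integral_finset_sum _ fun J' _ => integrable_finset_sum _ fun ν _ => i2 J' ν] at A1
    refine (integral_congr_ae (.of_forall fun q => ?_)).trans
      (A1.symm.trans (integral_congr_ae (.of_forall fun q => ?_)))
    · simp only [Complex.real_smul]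
      ring
    · simp only [Finset.mul_sum]
      exact Finset.sum_congr rfl fun _ _ => Finset.sum_congr rfl fun _ _ => by ring

end

end Vale.Agent.P352X.Poly
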