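import Vale.Agent.P352X.R.POLY.Defs
import Vale.Agent.P352X.Api4

/-!
# P352X, row POLY: extension to all test functions, removal of the vacuum (helper21)
-/

set_option linter.all false

open MeasureTheory Measure Set Filter Topology
open scoped SchwartzMap ComplexConjugate NNReal ENNReal

namespace Vale.Agent.P352X.Poly

open Vale.Agent.P352.GF Vale.Agent.P352.BW Vale.Agent.P352.H496 Vale.Agent.P352.H755
open UniformSpace (Completion)
open Two

noncomputable section

variable {D : Type*} [NormedAddCommGroup D] [InnerProductSpace ℂ D] {c : Ctx D}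

/-- a continuous function that vanishes exactly outside the open cone and tends to zero -/
def rc (p : V) : ℝ := max 0 (min (min (be p) (mu p)) (1 + ‖p‖)⁻¹)

lemma cont_rc : Continuous rc := continuous_const.max (Continuous.min (by fun_prop)
  (Continuous.inv₀ (by fun_prop) fun p => by positivity))

lemma rc_pos {p : V} : 0 < rc p ↔ p ∈ Fc := by
  have : 0 < 1 + ‖p‖ := by positivity
  simp [rc, mem_Fc, this]

lemma rc_le (p : V) : rc p ≤ (1 + ‖p‖)⁻¹ := max_le (by positivity) (min_le_right _ _)

/-- from compactly supported functions to bounded functions -/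
lemma all_bd {v w : Completion D} {F : V → ℂ} (hF : IntegrableOn F Fc)
    (h : ∀ G, Cp Fc G → inner ℂ v (c.bt.Phi G w) = ∫ p in Fc, G p * F p)
    (h1 : ∀ᵐ p ∂c.nu v, p ∈ Fc) {G : V → ℂ} (hG : SN.Bd G) :
    inner ℂ v (c.bt.Phi G w) = ∫ p in Fc, G p * F p := by
  obtain ⟨C, hC0, hC⟩ := hG.nonneg_bound
  let A : ℕ → Set V := fun n => {p | 1 / ((n : ℝ) + 1) ≤ rc p}
  have hc : ∀ n, IsCompact (A n) := fun n => Metric.isCompact_of_isClosed_isBounded
    (isClosed_le continuous_const cont_rc) ((Metric.isBounded_closedBall (x := 0) (r := n)).subset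
      fun p hp => mem_closedBall_zero_iff.2 (by
        have := (inv_le_inv₀ (by positivity) (by positivity)).1
          (((one_div _).symm.trans_le hp).trans (rc_le p))
        linarith))
  have hA := fun n => (hc n).measurableSet
  have e : ∀ n, inner ℂ (c.bt.Phi (fun p => conj ((A n).indicator G p)) v) w =
      ∫ p in Fc, (A n).indicator G p * F p := fun n => by
    rw [← h _ (cp_ind (hc n) (fun p hp => rc_pos.1 (lt_of_lt_of_le Nat.one_div_pos_of_nat hp)) hG),
      c.bt.adj' (hG.indicator (hA n))]
  have lim : ∀ p ∈ Fc, Tendsto (fun n => (A n).indicator G p) atTop (𝓝 (G p)) := fun p hp =>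
    tendsto_const_nhds.congr' (((tendsto_one_div_add_atTop_nhds_zero_nat (𝕜 := ℝ)).eventually
      (eventually_le_nhds (rc_pos.2 hp))).mono fun n hn =>
        (indicator_of_mem (show p ∈ A n from hn) G).symm)
  have bd : ∀ n p, ‖(A n).indicator G p‖ ≤ C := fun n p =>
    (norm_indicator_le_norm_self _ _).trans (hC p)
  have t1 := (c.bt.tendsto_Phi (fun n => (hG.indicator (hA n)).cj) hG.cj (K := C) (v := v)
    (.of_forall fun n => .of_forall fun p => by simpa using bd n p)
    (h1.mono fun p hp => (Complex.continuous_conj.tendsto _).comp (lim p hp))).inner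
    (𝕜 := ℂ) (tendsto_const_nhds (x := w))
  have t2 := tendsto_integral_of_dominated_convergence (μ := volume.restrict Fc)
    (F := fun n p => (A n).indicator G p * F p) (f := fun p => G p * F p) (fun p => C * ‖F p‖)
    (fun n => (hG.indicator (hA n)).1.aestronglyMeasurable.mul hF.1) (hF.norm.const_mul C)
    (fun n => .of_forall fun p => by rw [norm_mul]; gcongr; exact bd n p)
    ((ae_fc _).mono fun p hp => (lim p hp).mul_const _)
  rw [c.bt.adj' hG]
  exact tendsto_nhds_unique t1 (by simpa only [e] using t2)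

lemma int_q (q : MvPolynomial Ix ℂ) {f g : Fn} (hf : IsTest f) (hg : IsTest g) :
    IntegrableOn (fun p => evp q p * (conj (ft f p) * ft g p)) Fc := by
  obtain ⟨C, hC⟩ := (bd_ft hf).cj.2
  have := (test_int (test_mul (Api4.temperate_evp q (ContinuousLinearMap.id ℝ V))
    (test_ft hg))).bdd_mul (bd_ft hf).cj.1.aestronglyMeasurable (.of_forall hC)
  exact (this.congr (.of_forall fun p => mul_left_comm _ _ _)).integrableOn

theorem ext (c : Ctx D) : EXT c := fun k l d d' Λ Λ' J μ q h h' h1 e f' f => by
  have := transfer (H := evp q) wt_g0.bd g0_ne (bd_ft ⟨f', rfl⟩) (bd_ft ⟨f, rfl⟩) (h.rel J f')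
    (h'.rel μ f) (fun G hG => all_bd ((int_q q g0_in.1 g0_in.1).congr
      (.of_forall fun p => mul_comm _ _)) e h1 hG) (int_q q ⟨f', rfl⟩ ⟨f, rfl⟩) (.const 1)
  simpa only [c.bt.one, one_mul, ContinuousLinearMap.one_apply] using this

lemma pO_apply (O : Sch →L[ℂ] Completion D) (f : Sch) :
    pO c O f = O f - inner ℂ c.Om (O f) • c.Om := rfl

theorem red (c : Ctx D) : RED c := fun k d O h => by
  refine ⟨fun μ s L a f g hs hL e => ?_, fun μ f v hv => ?_⟩
  · obtain ⟨κ, e⟩ := h.cov μ s L a f g hs hL e
    have h1 : inner ℂ c.Om c.Om = 1 := Kin.inner_om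
    have h2 : ∀ v, inner ℂ c.Om (Ug c.Q s L a v) = inner ℂ c.Om v := fun v => by
      rw [Ug_apply _ hs hL]
      exact Kin.inner_om_U c.bR hs hL a v
    simp only [← Ug_apply _ hs hL] at e
    simp only [pO_apply, e, map_sub, map_smul, (grp_row c).vac, inner_add_right, inner_sum,
      inner_smul_right, h2, smul_sub, Finset.sum_sub_distrib, add_smul, Finset.sum_smul, smul_smul]
    rw [show inner ℂ c.Om (om c.Q) = 1 from h1, mul_one]
    exact add_sub_add_right_eq_sub _ _ _
  · rw [pO_apply, inner_sub_right, inner_smul_right, inner_eq_zero_symm.1 hv, mul_zero, sub_zero]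

end

end Vale.Agent.P352X.Poly
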