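import Vale.Agent.P352X.R.POLY.Defs
import Vale.Agent.P352X.R.POLY.Alg

/-!
# P352X, row POLY.pol: the densities are continuous and rational
-/

set_option linter.all false

namespace Vale.Agent.P352X.Poly

open Vale.Agent.P352.GF Vale.Agent.P352.BW MvPolynomial Two AlgP

noncomputable section

namespace PolP

theorem ex_du (a : Fin 4) (m : Ix) : ∃ q : Q4, ∀ p, evp q p = du a p m := by
  have h (p : V) : eval (fun m => (p m : ℂ)) bp = be p := evp_bp p
  have h' (p : V) : eval (fun m => (p m : ℂ)) mup = mu p := evp_mup p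
  fin_cases a
  · exact ⟨bp * X m - mup * C (va m : ℂ), fun p => by simp [evp, du, h, h']⟩
  · exact ⟨-(bp * C (ex 0 m : ℂ) + X 2 * C (va m : ℂ)), fun p => by simp [evp, du, h]⟩
  · exact ⟨-(bp * C (ex 1 m : ℂ) + X 3 * C (va m : ℂ)), fun p => by simp [evp, du, h]⟩
  · exact ⟨bp * C (va m : ℂ), fun p => by simp [evp, du, h]⟩

def nw : Fin 4 → ℕ := ![1, 1, 1, 0]
def zw : Fin 4 → ℤ := ![-1, 0, 0, 1]

theorem nw_eq (a : Fin 4) : xw a - yw a = nw a := by fin_cases a <;> norm_num [xw, yw, nw]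

theorem zw_eq (a : Fin 4) : yw a = zw a / 2 := by fin_cases a <;> norm_num [yw, zw]

theorem par {k : ℕ} (A : Fin k → Fin 4) : Even (∑ j, zw (A j) + k + nU A) := by
  have e : ∀ a, Even (zw a + 1 + if a = 1 ∨ a = 2 then 1 else 0) := by decide
  have := Finset.even_sum (s := Finset.univ) _ fun j _ => e (A j)
  simpa [Finset.sum_add_distrib, nU] using this

theorem expo {N : ℕ} {d : ℤ} {A : Fin 2 → Fin 4} {C : Fin N → Fin 4} (hd : Even (d - N))
    (h0 : A 0 ≠ 3) (h1 : A 1 ≠ 3) (h2 : Even (nU A + nU C))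
    (h3 : 1 / 2 < (d : ℝ) / 2 + ∑ j, yw (C j)) :
    ∃ n : ℕ, (d : ℝ) / 2 + ∑ j, yw (A j) + ∑ j, yw (C j) = n ∧ (A 0 ≠ 0 → n ≠ 0) := by
  simp only [zw_eq, ← Finset.sum_div, ← Int.cast_sum] at h3 ⊢
  have h4 : 1 < d + ∑ j, zw (C j) := by
    have : (1 : ℝ) < d + (∑ j, zw (C j) : ℤ) := by linarith
    exact_mod_cast this
  have h5 : ∀ a, -1 ≤ zw a := by decide
  have h6 : ∀ a, a ≠ 0 → 0 ≤ zw a := by decide
  obtain ⟨x1, e1⟩ := hd
  obtain ⟨x2, e2⟩ := par A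
  obtain ⟨x3, e3⟩ := par C
  obtain ⟨x4, e4⟩ := h2
  have a0 := h5 (A 0)
  have a1 := h5 (A 1)
  have e5 := Fin.sum_univ_two fun j => zw (A j)
  obtain ⟨n, hn⟩ : ∃ n : ℕ, d + ∑ j, zw (A j) + ∑ j, zw (C j) = 2 * n :=
    ⟨((d + ∑ j, zw (A j) + ∑ j, zw (C j)) / 2).toNat, by omega⟩
  refine ⟨n, ?_, fun h => by have := h6 _ h; omega⟩
  have : (d : ℝ) + (∑ j, zw (A j) : ℤ) + (∑ j, zw (C j) : ℤ) = 2 * n := by exact_mod_cast hn
  linarith

theorem cm_eq {k : ℕ} (μ : Fin k → Ix) (A : Fin k → Fin 4) {p : V} (hp : p ∈ Fc) :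
    (be p ^ 2) ^ k * cm μ A p = ∏ j, du (A j) p (μ j) := by
  have := ((mem_Fc p).1 hp).1
  rw [cm, Finset.prod_div_distrib, Finset.prod_const, Finset.card_fin]
  field_simp

end PolP

open PolP

/-- **row POLY.pol** -/
theorem pol : POL := by
  refine ⟨fun k l e κ J μ => ?_, fun N d κ hd hκ => ?_⟩
  · have h1 : ∀ p ∈ Fc, be p ≠ 0 := fun p hp => ((mem_Fc p).1 hp).1.ne'
    have h2 : ∀ p ∈ Fc, mu p ≠ 0 := fun p hp => ((mem_Fc p).1 hp).2.ne'
    have h3 : ∀ {k} (μ : Fin k → Ix) A, ContinuousOn (cm μ A) Fc := fun μ A =>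
      continuousOn_finset_prod _ fun j _ => ((continuous_apply _).comp (cont_du _)).continuousOn.div
        (by fun_prop) fun p hp => pow_ne_zero 2 (h1 p hp)
    refine continuousOn_finset_sum _ fun A _ => continuousOn_finset_sum _ fun C _ =>
      continuousOn_const.mul (Complex.continuous_ofReal.comp_continuousOn ?_)
    exact (((by fun_prop : Continuous be).continuousOn.rpow_const fun p hp => .inl (h1 p hp)).mul
      ((by fun_prop : Continuous mu).continuousOn.rpow_const fun p hp => .inl (h2 p hp))).mul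
      ((h3 _ _).mul (h3 _ _))
  choose dp hp using ex_du
  have key : ∀ (A : Fin 2 → Fin 4) (B : Fin N → Fin 4), ∃ (a : Ix → (Fin N → Ix) → Q4)
      (q : Ix → Ix → (Fin N → Ix) → Q4), ∀ r s μ, ∀ p ∈ Fc, (be p : ℂ) ^ (2 * 2 + 2 * N) * (κ A B *
      ((be p ^ (∑ j, (xw (A j) - yw (A j)) + ∑ j, (xw (B j) - yw (B j))) *
        mu p ^ ((d : ℝ) / 2 + ∑ j, yw (A j) + ∑ j, yw (B j)) *
        (cm ![r, s] A p * cm μ B p) : ℝ) : ℂ)) =
      (p r : ℂ) * evp (a s μ) p + (mu p : ℂ) * evp (q r s μ) p := fun A B => by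
    by_cases h0 : κ A B = 0
    · exact ⟨0, 0, fun r s μ p _ => by simp [h0, evp]⟩
    obtain ⟨a0, a1, a2, a3⟩ := hκ A B h0
    obtain ⟨n, hn, hn'⟩ := expo hd a0 a1 a2 a3
    obtain ⟨w, hw⟩ : ∃ w : Ix → (Fin N → Ix) → Q4, ∀ r s μ, ∀ p ∈ Fc,
        (be p : ℂ) ^ (2 * 2 + 2 * N) * (κ A B *
        ((be p ^ (∑ j, (xw (A j) - yw (A j)) + ∑ j, (xw (B j) - yw (B j))) *
          mu p ^ ((d : ℝ) / 2 + ∑ j, yw (A j) + ∑ j, yw (B j)) *
          (cm ![r, s] A p * cm μ B p) : ℝ) : ℂ)) =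
        (mu p : ℂ) ^ n * (du (A 0) p r : ℝ) * evp (w s μ) p := by
      refine ⟨fun s μ => C (κ A B) * bp ^ (∑ j, nw (A j) + ∑ j, nw (B j)) * dp (A 1) s *
        ∏ j, dp (B j) (μ j), fun r s μ p h => ?_⟩
      have e1 := congrArg Complex.ofReal (cm_eq ![r, s] A h)
      have e2 := congrArg Complex.ofReal (cm_eq μ B h)
      simp only [hn, nw_eq, ← Nat.cast_sum, ← Nat.cast_add, Real.rpow_natCast, evp, map_mul,
        map_pow, map_prod, eval_C]
      simp only [← evp.eq_1, hp, evp_bp]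
      simp only [Fin.prod_univ_two, Matrix.cons_val_zero, Matrix.cons_val_one] at e1
      push_cast at e1 e2 ⊢
      rw [← e2, pow_add, pow_mul]
      linear_combination (κ A B * be p ^ (∑ j, nw (A j) + ∑ j, nw (B j)) * mu p ^ n *
        ((be p : ℂ) ^ 2) ^ N * cm μ B p) * e1
    by_cases hA : A 0 = 0
    · refine ⟨fun s μ => mup ^ n * bp * w s μ, fun r s μ => -(mup ^ n * C (va r : ℂ) * w s μ),
        fun r s μ p h => ?_⟩
      rw [hw r s μ p h, hA]
      simp only [evp, map_mul, map_pow, map_neg, eval_C]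
      simp only [← evp.eq_1, evp_bp, evp_mup]
      simp [du]
      ring
    · obtain ⟨m, rfl⟩ := Nat.exists_eq_succ_of_ne_zero (hn' hA)
      refine ⟨0, fun r s μ => mup ^ m * dp (A 0) r * w s μ, fun r s μ p h => ?_⟩
      rw [hw r s μ p h]
      simp only [evp, map_mul, map_pow, Pi.zero_apply, map_zero]
      simp only [← evp.eq_1, hp, evp_mup, Nat.succ_eq_add_one]
      ring
  choose a q h using key
  refine ⟨2 * 2 + 2 * N, fun s μ => ∑ A, ∑ B, a A B s μ, fun r s μ => ∑ A, ∑ B, q A B r s μ,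
    fun r s μ p hp => ?_⟩
  simp only [FF, Finset.mul_sum, h _ _ r s μ p hp, evp, map_sum, Finset.sum_add_distrib]

end

end Vale.Agent.P352X.Poly
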