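import Vale.Agent.P352X.Api3

/-!
# P352X, row POLY: the algebraic half, statement (helper21)
-/

set_option linter.all false

namespace Vale.Agent.P352X.Poly

open Vale.Agent.P352.GF Vale.Agent.P352.BW

/-- covariant tensor functions on the cone that are rational with denominators `p_a ^ M` -/
structure Pre (N : ℕ) (d : ℤ) (F : Ix → Ix → (Fin N → Ix) → V → ℂ) : Prop where
  cov : ∀ r s μ t L p, 0 < t → IsLor L → p ∈ Fc → F r s μ (sim t L 0 p) = ((t ^ d : ℝ) : ℂ) *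
    ∑ k, ∑ l, ∑ ν : Fin N → Ix, ((L k r * L l s * ∏ i, L (ν i) (μ i) : ℝ) : ℂ) * F k l ν p
  sym : ∀ r s μ p, p ∈ Fc → F r s μ p = F s r μ p
  con : ∀ s μ p, p ∈ Fc → ∑ r, ((eta r * p r : ℝ) : ℂ) * F r s μ p = 0
  pol : ∃ (M : ℕ) (A : Ix → (Fin N → Ix) → MvPolynomial Ix ℂ)
    (Q : Ix → Ix → (Fin N → Ix) → MvPolynomial Ix ℂ), ∀ r s μ p, p ∈ Fc →
      (be p : ℂ) ^ M * F r s μ p = (p r : ℂ) * evp (A s μ) p + (mu p : ℂ) * evp (Q r s μ) p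

/-- such functions are polynomials -/
def ALG : Prop := ∀ (N : ℕ) (d : ℤ) (F : Ix → Ix → (Fin N → Ix) → V → ℂ), Pre N d F →
  ∃ π : Ix → Ix → (Fin N → Ix) → MvPolynomial Ix ℂ,
  (∀ r s μ p, p ∈ Fc → evp (π r s μ) p = F r s μ p) ∧
  (∀ r s μ, (π r s μ).IsHomogeneous d.toNat ∧ (d < 0 → π r s μ = 0)) ∧
  (∀ r s μ, π r s μ = π s r μ) ∧
  (∀ s μ, ∑ r, MvPolynomial.C (eta r : ℂ) * MvPolynomial.X r * π r s μ = 0) ∧
  (∀ r s k μ, mup ∣ π r s μ * MvPolynomial.X k - π k s μ * MvPolynomial.X r) ∧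
  ∀ r s μ L p, IsLor L → evp (π r s μ) (sim 1 L 0 p) = ∑ k, ∑ l, ∑ ν : Fin N → Ix,
    ((L k r * L l s * ∏ i, L (ν i) (μ i) : ℝ) : ℂ) * evp (π k l ν) p

end Vale.Agent.P352X.Poly
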