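import Vale.Agent.P352X.R.TWO.Mu
import Vale.Agent.P352X.R.POLY.Spec

/-!
# P352X, row POLY: the analytic half, statements (helper21)
-/

set_option linter.all false

open MeasureTheory Measure Set Filter Topology
open scoped SchwartzMap ComplexConjugate NNReal ENNReal

namespace Vale.Agent.P352X.Poly

open Vale.Agent.P352.GF Vale.Agent.P352.BW Vale.Agent.P352.H496 Vale.Agent.P352.H755
open UniformSpace (Completion)
open Two

noncomputable section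

variable {D : Type*} [NormedAddCommGroup D] [InnerProductSpace ℂ D] (c : Ctx D)

/-- `|ft g0| ^ 2 F` is the density of the overlap of `v` and `w` in the open cone -/
def Den (v w : Completion D) (F : V → ℂ) : Prop := ∀ G, Cp Fc G →
  inner ℂ v (c.bt.Phi G w) = ∫ p in Fc, G p * (conj (ft g0 p) * ft g0 p * F p)

/-- the number of transversal slots -/
def nU {k : ℕ} (A : Fin k → Fin 4) : ℕ := (Finset.univ.filter fun j => A j = 1 ∨ A j = 2).card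

/-- the components of the dual frame -/
def cm {k : ℕ} (μ : Fin k → Ix) (A : Fin k → Fin 4) (p : V) : ℝ :=
  ∏ j, du (A j) p (μ j) / be p ^ 2

/-- the densities -/
def FF {k l : ℕ} (e : ℝ) (κ : (Fin k → Fin 4) → (Fin l → Fin 4) → ℂ) (J : Fin k → Ix)
    (μ : Fin l → Ix) (p : V) : ℂ := ∑ A, ∑ C, κ A C *
  ((be p ^ (∑ j, (xw (A j) - yw (A j)) + ∑ j, (xw (C j) - yw (C j))) *
    mu p ^ (e + ∑ j, yw (A j) + ∑ j, yw (C j)) * (cm J A p * cm μ C p) : ℝ) : ℂ)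

/-- the selection rules -/
def Sel {l : ℕ} (d : ℝ) (κ : (Fin 2 → Fin 4) → (Fin l → Fin 4) → ℂ) : Prop := ∀ A C, κ A C ≠ 0 →
  A 0 ≠ 3 ∧ A 1 ≠ 3 ∧ Even (nU A + nU C) ∧ 1 / 2 < d / 2 + ∑ j, yw (C j)

/-- the part orthogonal to the vacuum -/
def pO (O : Sch →L[ℂ] Completion D) : Sch →L[ℂ] Completion D :=
  O - (innerSL ℂ c.Om ∘L O).smulRight c.Om

/-- uniqueness of continuous densities -/
def UNI : Prop := ∀ v w F F', Den c v w F → Den c v w F' → ContinuousOn F Fc →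
  ContinuousOn F' Fc → ∀ p ∈ Fc, F p = F' p

/-- covariance of the densities -/
def COV : Prop := ∀ (k l : ℕ) (d d' : ℝ) (Λ : (Fin k → Ix) → Sch →L[ℂ] Completion D)
  (Λ' : (Fin l → Ix) → Sch →L[ℂ] Completion D) (F : (Fin k → Ix) → (Fin l → Ix) → V → ℂ),
  Mu c d Λ → Mu c d' Λ' → (∀ J μ, Den c (Λ J gS) (Λ' μ gS) (F J μ)) →
  (∀ J μ, ContinuousOn (F J μ) Fc) → ∀ J μ t L p, 0 < t → IsLor L → p ∈ Fc →
    F J μ (sim t L 0 p) = ((t ^ (d + d' - 4) : ℝ) : ℂ) * ∑ J' : Fin k → Ix, ∑ ν : Fin l → Ix,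
      (((∏ i, L (J' i) (J i)) * ∏ i, L (ν i) (μ i) : ℝ) : ℂ) * F J' ν p

/-- conservation of the densities -/
def CON : Prop := ∀ (v : Ix → Completion D) w (F : Ix → V → ℂ),
  (∀ G, Cp Fc G → ∑ m, c.bt.Phi (fun p => G p * (eta m * p m : ℝ)) (v m) = 0) →
  (∀ m, Den c (v m) w (F m)) → (∀ m, ContinuousOn (F m) Fc) →
  ∀ p ∈ Fc, ∑ m, ((eta m * p m : ℝ) : ℂ) * F m p = 0

/-- the parity rule -/
def PAR : Prop := ∀ (k l : ℕ) (d d' : ℝ) (Λ : (Fin k → Ix) → Sch →L[ℂ] Completion D)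
  (Λ' : (Fin l → Ix) → Sch →L[ℂ] Completion D) K A C (κ : ℂ) (a b : ℝ), Mu c d Λ → Mu c d' Λ' →
  Ad k K → Ad l K → IntegrableOn (fun p => κ * dn (fun p => K p * ft g0 p) a b p) Fc →
  (∀ G, SN.Bd G → inner ℂ (Zf c Λ K A) (c.bt.Phi G (Zf c Λ' K C)) =
    ∫ p in Fc, G p * (κ * dn (fun p => K p * ft g0 p) a b p)) → κ ≠ 0 → Even (nU A + nU C)

/-- the densities are continuous and rational -/
def POL : Prop := (∀ (k l : ℕ) e (κ : (Fin k → Fin 4) → (Fin l → Fin 4) → ℂ) J μ,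
    ContinuousOn (FF e κ J μ) Fc) ∧
  ∀ (N : ℕ) (d : ℤ) (κ : (Fin 2 → Fin 4) → (Fin N → Fin 4) → ℂ), Even (d - N) → Sel d κ →
    ∃ (M : ℕ) (A : Ix → (Fin N → Ix) → MvPolynomial Ix ℂ)
      (Q : Ix → Ix → (Fin N → Ix) → MvPolynomial Ix ℂ), ∀ r s μ p, p ∈ Fc →
      (be p : ℂ) ^ M * FF (d / 2) κ ![r, s] μ p =
        (p r : ℂ) * evp (A s μ) p + (mu p : ℂ) * evp (Q r s μ) p

/-- from the reference function to all test functions -/
def EXT : Prop := ∀ (k l : ℕ) (d d' : ℝ) (Λ : (Fin k → Ix) → Sch →L[ℂ] Completion D)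
  (Λ' : (Fin l → Ix) → Sch →L[ℂ] Completion D) J μ (q : MvPolynomial Ix ℂ), Mu c d Λ →
  Mu c d' Λ' → (∀ᵐ p ∂c.nu (Λ J gS), p ∈ Fc) → Den c (Λ J gS) (Λ' μ gS) (evp q) →
  ∀ f' f : Sch, inner ℂ (Λ J f') (Λ' μ f) =
    ∫ p in Fc, evp q p * (conj (ft (ev f') p) * ft (ev f) p)

/-- removal of the vacuum -/
def RED : Prop := ∀ (k : ℕ) (d : ℝ) (O : (Fin k → Ix) → Sch →L[ℂ] Completion D),
  CovM c.Q k d O → Mu c d (fun μ => pO c (O μ)) ∧
    ∀ μ f v, inner ℂ c.Om v = 0 → inner ℂ v (pO c (O μ) f) = inner ℂ v (O μ f)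

end

end Vale.Agent.P352X.Poly
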