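import Vale.Agent.P352X.R.POLY.Defs

/-!
# P352X, row POLY: from the reference function to all test functions (helper17)
-/

set_option linter.all false

open MeasureTheory Measure Set Filter Topology
open scoped SchwartzMap ComplexConjugate NNReal ENNReal

namespace Vale.Agent.P352X.Poly

open Vale.Agent.P352.GF Vale.Agent.P352.BW Vale.Agent.P352.H496 Vale.Agent.P352.H755
open UniformSpace (Completion)
open Two

noncomputable section

theorem evp_bd (q : MvPolynomial Ix ℂ) :
    Continuous (evp q) ∧ ∃ (C : ℝ) (N : ℕ), 0 ≤ C ∧ ∀ p, ‖evp q p‖ ≤ C * (1 + ‖p‖) ^ N := by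
  induction q using MvPolynomial.induction_on with
  | C a =>
    have e : evp (.C a) = fun _ => a := funext fun x => by simp [evp]
    exact e ▸ ⟨continuous_const, ‖a‖, 0, norm_nonneg _, by simp⟩
  | add p q hp hq =>
    obtain ⟨h1, C, N, h2, h3⟩ := hp
    obtain ⟨k1, C', N', k2, k3⟩ := hq
    have e : evp (p + q) = fun x => evp p x + evp q x := funext fun x => map_add _ _ _
    refine e ▸ ⟨h1.add k1, C + C', N + N', by positivity, fun x => (norm_add_le _ _).trans ?_⟩
    have h : 1 ≤ 1 + ‖x‖ := le_add_of_nonneg_right (norm_nonneg x)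
    rw [add_mul]
    exact add_le_add ((h3 x).trans (by gcongr; omega)) ((k3 x).trans (by gcongr; omega))
  | mul_X p m hp =>
    obtain ⟨h1, C, N, h2, h3⟩ := hp
    have e : evp (p * .X m) = fun x => evp p x * x m := funext fun x => by simp [evp]
    refine e ▸ ⟨h1.mul (by fun_prop), C, N + 1, h2, fun x => ?_⟩
    rw [norm_mul, pow_succ, ← mul_assoc, Complex.norm_real]
    exact mul_le_mul (h3 x) ((norm_le_pi_norm x m).trans (le_add_of_nonneg_left zero_le_one))
      (norm_nonneg _) (by positivity)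

theorem int_evp (q : MvPolynomial Ix ℂ) {f f' : Fn} (hf' : IsTest f') (hf : IsTest f) :
    IntegrableOn (fun p => evp q p * (conj (ft f' p) * ft f p)) Fc := by
  obtain ⟨h1, C, N, -, h2⟩ := evp_bd q
  obtain ⟨B, hB⟩ := (bd_ft hf').cj.2
  simp only [mul_left_comm (evp q _)]
  exact (int_pol_ft h1.aestronglyMeasurable (.of_forall h2) hf).bdd_mul
    (bd_ft hf').cj.1.aestronglyMeasurable (.of_forall hB)

variable {D : Type*} [NormedAddCommGroup D] [InnerProductSpace ℂ D] (c : Ctx D)

/-- from `Cp` functions to bounded functions -/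
theorem cp_ext {v w : Completion D} {H : V → ℂ} (hv : ∀ᵐ p ∂c.nu v, p ∈ Fc)
    (hH : IntegrableOn H Fc)
    (h : ∀ G, Cp Fc G → inner ℂ v (c.bt.Phi G w) = ∫ p in Fc, G p * H p) {G : V → ℂ}
    (hG : SN.Bd G) : inner ℂ v (c.bt.Phi G w) = ∫ p in Fc, G p * H p := by
  obtain ⟨C, -, hC⟩ := hG.nonneg_bound
  obtain ⟨F, f1, f2, f3, f4⟩ := isOpen_Fc.exists_iUnion_isClosed
  let A : ℕ → Set V := fun n => Metric.closedBall 0 n ∩ F n
  have hA : ∀ n, Cp Fc ((A n).indicator G) := fun n =>
    cp_ind ((isCompact_closedBall _ _).inter_right (f1 n)) (inter_subset_right.trans (f2 n)) hG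
  have lim : ∀ p ∈ Fc, Tendsto (fun n => (A n).indicator G p) atTop (𝓝 (G p)) := fun p hp => by
    obtain ⟨n, hn⟩ := mem_iUnion.1 (f3.symm ▸ hp)
    refine tendsto_const_nhds.congr' ?_
    filter_upwards [eventually_ge_atTop n, (tendsto_natCast_atTop_atTop (R := ℝ)).eventually
      (eventually_ge_atTop ‖p‖)] with m h1 h2
    exact (indicator_of_mem (show p ∈ A m from ⟨mem_closedBall_zero_iff.2 h2, f4 h1 hn⟩) G).symm
  have bd : ∀ n p, ‖(A n).indicator G p‖ ≤ C := fun n p =>
    (norm_indicator_le_norm_self _ _).trans (hC p)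
  have t1 := (c.bt.tendsto_Phi (fun n => (hA n).1.cj) hG.cj (K := C) (v := v)
    (.of_forall fun n => .of_forall fun p => by simpa using bd n p)
    (hv.mono fun p hp => (Complex.continuous_conj.tendsto _).comp (lim p hp))).inner
    (𝕜 := ℂ) (tendsto_const_nhds (x := w))
  have t2 := tendsto_integral_of_dominated_convergence (μ := volume.restrict Fc)
    (F := fun n p => (A n).indicator G p * H p) (f := fun p => G p * H p) (fun p => C * ‖H p‖)
    (fun n => (hA n).1.1.aestronglyMeasurable.mul hH.1) (hH.norm.const_mul C)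
    (fun n => .of_forall fun p => by rw [norm_mul]; gcongr; exact bd n p)
    ((ae_restrict_mem meas_Fc).mono fun p hp => (lim p hp).mul_const _)
  rw [c.bt.adj' hG]
  exact tendsto_nhds_unique t1 (by simpa only [← h _ (hA _), c.bt.adj' (hA _).1] using t2)

theorem ext : EXT c := fun k l d d' Λ Λ' J μ q h h' hv hd f' f => by
  have := transfer (H := evp q) wt_g0.bd g0_ne (bd_ft ⟨f', rfl⟩) (bd_ft ⟨f, rfl⟩) (h.rel J f')
    (h'.rel μ f) (fun G hG => cp_ext c hv (by
      simpa only [mul_comm (evp q _)] using int_evp q g0_in.1 g0_in.1) hd hG)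
    (int_evp q ⟨f', rfl⟩ ⟨f, rfl⟩) (.const 1)
  simpa [c.bt.one] using this

theorem pO_apply (O : Sch →L[ℂ] Completion D) (f : Sch) :
    pO c O f = O f - inner ℂ c.Om (O f) • c.Om := rfl

theorem red : RED c := fun k d O h => by
  refine ⟨fun μ s L a f g hs hL e => ?_, fun μ f v hv => ?_⟩
  · obtain ⟨κ, hκ⟩ := h.cov μ s L a f g hs hL e
    have g1 := fun v => Grp.ug_inner (Q := c.Q) hs hL a c.Om v
    simp only [(grp_row c).vac] at g1
    simp only [← Ug_apply c.Q hs hL] at hκ
    have n : inner ℂ c.Om c.Om = 1 := by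
      simp [inner_self_eq_norm_sq_to_K, show ‖c.Om‖ = 1 from c.E.norm_xi]
    simp only [pO_apply, hκ, map_sub, map_smul, (grp_row c).vac, inner_add_right, inner_sum,
      inner_smul_right, g1, smul_sub, Finset.sum_sub_distrib, add_smul, Finset.sum_smul, smul_smul]
    erw [n, mul_one]
    exact add_sub_add_right_eq_sub _ _ _
  · rw [pO_apply, inner_sub_right, inner_smul_right, ← inner_conj_symm v c.Om, hv, map_zero,
      mul_zero, sub_zero]

end

end Vale.Agent.P352X.Poly
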